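import Vale.Agent.P144DD.Top

/-!
Clusters in the plane, by self-similarity.
-/

namespace Vale.Agent.P144DZ

open Filter Topology MeasureTheory Vale.Agent.P144 Vale.Agent.P144Z Vale.Agent.P144F
  Vale.Agent.P144DD

/-- The points divided by `s` and moved by `c`. -/
noncomputable def mv (s : ℝ) (c : ℂ) (p : Pts) : Pts :=
  ⟨p.n, p.m, fun i => p.x i / s - c, fun k => p.y k / s - c, p.j⟩

theorem mv_elim (s : ℝ) (c : ℂ) (p : Pts) (i : Fin p.n ⊕ Fin p.m) :
    Sum.elim (mv s c p).x (mv s c p).y i = Sum.elim p.x p.y i / s - c := by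
  rcases i with i | i <;> rfl

theorem ms_sp (v : Site) : Measurable fun σ : Config => sp (σ v) :=
  (measurable_of_countable sp).comp (measurable_pi_apply _)

theorem shift {μ : Measure Config} {t : Site} (ht : μ.map (fun σ x => σ (x + t)) = μ)
    {F : Config → ℝ} (hF : Measurable F) : ∫ σ, F σ ∂μ = ∫ σ, F (fun x => σ (x + t)) ∂μ := by
  have m : Measurable fun (σ : Config) x => σ (x + t) :=
    measurable_pi_lambda _ fun _ => measurable_pi_apply _
  conv_lhs => rw [← ht, integral_map m.aemeasurable hF.aestronglyMeasurable]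

theorem alg {n m : ℕ} (u : Fin n → ℝ) (v : Fin m → ℝ) (a b c d : ℝ) :
    (∏ i, a * b * u i) * ∏ k, c * d * v k =
      ((∏ i, a * u i) * ∏ k, c * v k) * b ^ n * d ^ m := by
  simp only [Finset.prod_mul_distrib, Finset.prod_const, Finset.card_fin]
  ring

theorem corr_mv {μ : Measure Config} {t : Site} (ht : μ.map (fun σ x => σ (x + t)) = μ) {a s : ℝ}
    (ha : 0 < a) (hs : 0 < s) (p : Pts) :
    corr (a / s) (famOf μ (a / s)) (mv s ⟨a / s * t.1, a / s * t.2⟩ p) =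
      corr a (famOf μ a) p * (s ^ (1 / 8 : ℝ)) ^ p.n * s ^ p.m := by
  have e0 : ∀ (z : ℂ) (d : Site), fl (a / s) (z / s - ⟨a / s * t.1, a / s * t.2⟩) + d + t =
      fl a z + d := fun z d => by rw [add_right_comm, fl_shift ha hs]
  have e1 : ∀ (z : ℂ) (d : Site), ∫ τ, sp (τ (fl (a / s) (z / s - ⟨a / s * t.1, a / s * t.2⟩))) *
      sp (τ (fl (a / s) (z / s - ⟨a / s * t.1, a / s * t.2⟩) + d)) ∂μ =
      ∫ τ, sp (τ (fl a z)) * sp (τ (fl a z + d)) ∂μ := fun z d => by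
    refine (shift ht ((ms_sp _).mul (ms_sp _))).trans ?_
    simp only [Pi.mul_apply, e0, fl_shift ha hs]
  have e2 : (a / s) ^ (-(1 / 8) : ℝ) = a ^ (-(1 / 8) : ℝ) * s ^ (1 / 8 : ℝ) := by
    rw [Real.div_rpow ha.le hs.le, Real.rpow_neg hs.le, div_inv_eq_mul]
  have e3 : (a / s)⁻¹ = a⁻¹ * s := by rw [inv_div, div_eq_inv_mul]
  obtain ⟨n, m, x, y, j⟩ := p
  simp only [corr, famOf, mv, e1]
  refine (shift ht ((Finset.measurable_prod _ fun i _ => (ms_sp _).const_mul _).mul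
    (Finset.measurable_prod _ fun i _ =>
      (((ms_sp _).mul (ms_sp _)).sub_const _).const_mul _))).trans ?_
  rw [← integral_mul_const, ← integral_mul_const]
  refine integral_congr_ae (Eventually.of_forall fun σ => ?_)
  simp only [Pi.mul_apply, e0, fl_shift ha hs, e2, e3]
  exact alg _ _ _ _ _ _

/-- Block Z. -/
theorem blkZ : BlkZ := by
  intro μ E₀ Zσ Zε _ ht hU hM n m k _ _ hk s₀ _
  have hk' : (2 : ℝ) ≤ k := by exact_mod_cast hk
  have k0 : (0 : ℝ) < 1 / k := by positivity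
  have k1 : (1 / k : ℝ) ≤ 1 := by rw [div_le_one (by positivity)]; linarith
  obtain ⟨θ, hθ, hU⟩ := hU n m (1 / 4) (by norm_num)
  obtain ⟨C, hM⟩ := hM n m (1 / 4) (by norm_num)
  have hp : ∀ᶠ a : ℝ in 𝓝[>] (0 : ℝ), a ^ θ ≤ (1 / k : ℝ) := by
    have : Tendsto (fun a : ℝ => a ^ θ) (𝓝[>] (0 : ℝ)) (𝓝 ((0 : ℝ) ^ θ)) :=
      ((Real.continuousAt_rpow_const 0 θ (Or.inr hθ.le)).tendsto).mono_left nhdsWithin_le_nhds
    rw [Real.zero_rpow hθ.ne'] at this
    exact (this.eventually (gt_mem_nhds k0)).mono fun _ h => h.le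
  obtain ⟨a₁, a0, H⟩ := (nhdsGT_basis 0).eventually_iff.1
    ((((hU 1 one_pos).and hM).and hp).and (Ioo_mem_nhdsGT one_pos))
  refine ⟨1 + |Zσ ^ n * Zε ^ m| * (C / (((1 / k : ℝ) ^ (1 / 8 : ℝ)) ^ n * (1 / k) ^ m)), 2 / a₁, 1,
    one_pos, ?_⟩
  filter_upwards [self_mem_nhdsWithin] with a ha s s1 _ p hn hm _ x2 x3
  subst hn hm
  replace ha : 0 < a := ha
  have hs : 0 < s := lt_of_lt_of_le (by positivity) s1
  have hb : 0 < a / s := by positivity
  obtain ⟨⟨⟨h1, h2⟩, h4⟩, -, h3⟩ := H (show a / s ∈ Set.Ioo 0 a₁ from ⟨hb, by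
    rw [div_mul_eq_mul_div, div_le_iff₀ a0] at s1
    rw [div_lt_iff₀ hs]
    linarith⟩)
  obtain ⟨z, hz⟩ : ∃ z : ℂ, ∀ i, ‖Sum.elim p.x p.y i - z‖ ≤ 2 * s := by
    rcases isEmpty_or_nonempty (Fin p.n ⊕ Fin p.m) with h | ⟨⟨i⟩⟩
    exacts [⟨0, fun i => h.elim i⟩, ⟨_, fun i' => x2 i' i⟩]
  set t := fl a z with ht'
  set c : ℂ := ⟨a / s * t.1, a / s * t.2⟩ with hc
  have e1 : ∀ u v : ℂ, ‖u / s - c - (v / s - c)‖ = ‖u - v‖ / s := fun u v => by
    rw [sub_sub_sub_cancel_right, ← sub_div, norm_div, Complex.norm_real, Real.norm_eq_abs,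
      abs_of_pos hs]
  have y1 : Ins Set.univ (1 / 4) (mv s c p) := fun i => ⟨by
    have k1 := norm_fl hb (z / s - c) 0
    have k2 : fl (a / s) (z / s - c) = fl (a / s) 0 := by
      have := fl_shift ha hs z t
      rw [← ht', add_eq_right] at this
      exact this.trans (by simp [fl]; rfl)
    have k3 := (e1 _ _).trans_le ((div_le_iff₀ hs).2 (hz i))
    have k4 := norm_sub_norm_le (Sum.elim p.x p.y i / s - c) (z / s - c)
    simp only [k2, zd, sub_self, Int.natAbs_zero, max_self, Nat.cast_zero, sub_zero] at k1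
    refine (congrArg norm (mv_elim s c p i)).trans_le ?_
    norm_num
    linarith, Set.subset_univ _⟩
  have y2 : Sep (1 / k) (mv s c p) := fun i j h => by
    refine le_of_le_of_eq ?_ (congrArg norm (congrArg₂ (· - ·) (mv_elim s c p i)
      (mv_elim s c p j))).symm
    rw [e1, le_div_iff₀ hs, one_div_mul_eq_div]
    exact x3 i j h
  have g1 := h1 (mv s c p) rfl rfl y1 fun i j h => h4.trans (y2 i j h)
  have g2 := h2 (mv s c p) rfl rfl y1 (fun _ => 1 / k) (fun _ => ⟨k0, k1⟩) y2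
  simp only [Finset.prod_const, Finset.card_univ, Fintype.card_fin] at g2
  rw [mul_assoc, ← le_div_iff₀ (by positivity)] at g2
  have g3 := mul_le_mul_of_nonneg_left g2 (abs_nonneg (Zσ ^ p.n * Zε ^ p.m))
  rw [← abs_mul] at g3
  have g4 := corr_mv (ht t) ha hs p
  rw [← abs_of_pos (pow_pos hs p.m), ← abs_of_pos (pow_pos (Real.rpow_pos_of_pos hs (1 / 8)) p.n),
    ← abs_mul, ← abs_mul, ← g4]
  exact (sub_le_iff_le_add.1 ((abs_sub_abs_le_abs_sub _ _).trans g1)).trans (add_le_add_right g3 _)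

end Vale.Agent.P144DZ
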